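import Vale.Agent.P318.ARV.Stmt
import Mathlib.MeasureTheory.Measure.Lebesgue.Basic
import Mathlib.MeasureTheory.Integral.Bochner.Set
import Mathlib.Analysis.Complex.ExponentialBounds

/-!
The rounding step of Arora, Rao and Vazirani: the structure theorem gives the upper bound.
-/

namespace Vale.Agent.P318.ARV

open Finset MeasureTheory

variable {n : ℕ} {c d : Fin n → Fin n → ℝ}

theorem Phi_nonneg (hc : IsCap c) : 0 ≤ Phi c := Real.sInf_nonneg fun _ ⟨_, h1, h2, e⟩ =>
  e ▸ cutRatio_nonneg hc h1 h2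

theorem cut_nonneg (hc : IsCap c) (S : Finset (Fin n)) :
    0 ≤ ∑ i ∈ S, ∑ j ∈ Sᶜ, (c i j - Phi c) := by
  rcases S.eq_empty_or_nonempty with rfl | h1
  · simp
  rcases eq_or_ne S univ with rfl | h2
  · simp
  have h := Phi_le hc h1 h2
  rw [cutRatio, le_div_iff₀ (zero_lt_one.trans_le (one_le_card_mul h1 h2))] at h
  simp only [sum_sub_distrib, sum_const, nsmul_eq_mul, card_compl, Fintype.card_fin]
  rw [Nat.cast_sub (by simpa using S.card_le_univ)]
  linarith

/-- the sweep over the level sets of `f` -/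
theorem sweep (hc : IsCap c) (f : Fin n → ℝ) :
    0 ≤ ∑ i, ∑ j, (c i j - Phi c) * max (f i - f j) 0 := by
  have h1 : ∀ i j, Integrable ((Set.Ioc (f j) (f i)).indicator fun _ => c i j - Phi c) := fun i j =>
    (integrable_indicator_iff measurableSet_Ioc).2 (integrableOn_const measure_Ioc_lt_top.ne)
  have h2 : ∀ i j, (c i j - Phi c) * max (f i - f j) 0 =
      ∫ s, (Set.Ioc (f j) (f i)).indicator (fun _ => c i j - Phi c) s := fun i j => by
    rw [integral_indicator_const _ measurableSet_Ioc, Real.volume_real_Ioc, smul_eq_mul, mul_comm]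
  simp only [h2]
  simp only [← integral_finsetSum _ fun j _ => h1 _ j]
  rw [← integral_finsetSum _ fun i _ => integrable_finsetSum _ fun j _ => h1 i j]
  refine integral_nonneg fun s => (cut_nonneg hc (univ.filter fun i => s ≤ f i)).trans_eq ?_
  rw [compl_filter, sum_filter]
  refine sum_congr rfl fun i _ => ?_
  rw [sum_filter]
  split_ifs with a
  · exact sum_congr rfl fun j _ => by simp [Set.indicator_apply, a]
  · exact (sum_eq_zero fun j _ => by simp [a]).symm

/-- rounding by the distance from a set -/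
theorem round (hc : IsCap c) (hd : IsNegType d) {A : Finset (Fin n)} (hA : A.Nonempty)
    {g : Fin n → ℝ} (hg : ∀ i, ∀ a ∈ A, g i ≤ d a i) :
    Phi c * (A.card * ∑ i, g i) ≤ ∑ i, ∑ j, c i j * d i j := by
  have hk := hd.negKer
  set f : Fin n → ℝ := fun i => A.inf' hA fun a => d a i with hf
  have h1 : ∀ i j, max (f i - f j) 0 ≤ d i j := fun i j => by
    obtain ⟨a, ha, e⟩ := A.exists_mem_eq_inf' hA fun a => d a j
    have := (inf'_le (fun a => d a i) ha).trans (hd.2 a j i)
    exact max_le (by rw [hk.symm i j, hf]; linarith) (hk.nonneg i j)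
  have h2 : A.card * ∑ i, g i ≤ ∑ i, ∑ j, max (f i - f j) 0 := by
    rw [mul_sum]
    refine sum_le_sum fun i _ => le_trans ?_
      (sum_le_sum_of_subset_of_nonneg A.subset_univ fun _ _ _ => le_max_right _ _)
    rw [← nsmul_eq_mul, ← sum_const]
    refine sum_le_sum fun j hj => le_max_of_le_left ?_
    have a1 : g i ≤ f i := le_inf' _ _ (hg i)
    have a2 : f j ≤ 0 := (inf'_le _ hj).trans_eq (hk.self j)
    linarith
  have h3 := sweep hc f
  simp only [sub_mul, sum_sub_distrib, ← mul_sum] at h3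
  exact (mul_le_mul_of_nonneg_left h2 (Phi_nonneg hc)).trans ((sub_nonneg.1 h3).trans
    (sum_le_sum fun i _ => sum_le_sum fun j _ => mul_le_mul_of_nonneg_left (h1 i j) (hc.2.1 i j)))

theorem core (h : SepStmt) : ∃ C : ℝ, 0 ≤ C ∧ ∀ (n : ℕ) (c d : Fin n → Fin n → ℝ), 2 ≤ n →
    IsCap c → IsNegType d → ∑ i, ∑ j, d i j = 4 * n ^ 2 →
      Phi c * n ^ 2 ≤ C * √(Real.log n) * ∑ i, ∑ j, c i j * d i j := by
  obtain ⟨κ, hκ, h⟩ := h
  refine ⟨8 + (κ ^ 3)⁻¹, by positivity, fun n c d hn hc hd hs => ?_⟩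
  have hk := hd.negKer
  have n2 : (2 : ℝ) ≤ n := by exact_mod_cast hn
  have hL : 1 / 2 ≤ √(Real.log n) := Real.le_sqrt_of_sq_le
    (le_trans (by linarith [Real.log_two_gt_d9]) (Real.log_le_log two_pos n2))
  have hE : 0 ≤ ∑ i, ∑ j, c i j * d i j :=
    sum_nonneg fun i _ => sum_nonneg fun j _ => mul_nonneg (hc.2.1 i j) (hk.nonneg i j)
  have hP := Phi_nonneg hc
  by_cases hH : ∃ i, (n : ℝ) / 4 ≤ (univ.filter fun j => d i j < 1).card
  · obtain ⟨i, hi⟩ := hH
    have h1 := round hc hd (A := univ.filter fun j => d i j < 1) ⟨i, by simp [hk.self]⟩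
      (g := fun j => d i j - 1) fun j a ha => by linarith [hd.2 i a j, (mem_filter.1 ha).2]
    have h2 : ∑ k, ∑ j, d k j ≤ ∑ k, ∑ j, (d i k + d i j) :=
      sum_le_sum fun k _ => sum_le_sum fun j _ => hk.symm i k ▸ hd.2 k i j
    simp only [sum_add_distrib, sum_const, card_univ, Fintype.card_fin, nsmul_eq_mul, ← mul_sum,
      hs] at h2
    have h3 : (n : ℝ) ≤ ∑ j, (d i j - 1) := by
      simp only [sum_sub_distrib, sum_const, card_univ, Fintype.card_fin, nsmul_eq_mul]
      nlinarith
    have h4 := (mul_le_mul_of_nonneg_left (mul_le_mul hi h3 (by positivity) (by positivity))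
      hP).trans h1
    have h5 : 4 ≤ (8 + (κ ^ 3)⁻¹) * √(Real.log n) := by
      nlinarith [mul_nonneg (inv_pos.2 (pow_pos hκ 3)).le (Real.sqrt_nonneg (Real.log n))]
    linarith [mul_le_mul_of_nonneg_right h5 hE]
  push Not at hH
  obtain ⟨A, B, hA, hB, hAB⟩ := h n d hn hd (by
    have h1 : ∑ i, ∑ j, (1 : ℝ) ≤ ∑ i, ∑ j, ((if 1 ≤ d i j ∧ d i j ≤ 16 then 1 else 0) +
        (if d i j < 1 then 1 else 0) + 16⁻¹ * d i j) := sum_le_sum fun i _ => sum_le_sum fun j _ => by
      have := hk.nonneg i j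
      by_cases a : d i j < 1
      · rw [if_pos a, if_neg fun b => b.1.not_gt a]; linarith
      · rw [if_neg a]
        split_ifs with b
        · linarith
        · linarith [not_le.1 fun e => b ⟨not_lt.1 a, e⟩]
    have h2 : ∑ i, ((univ.filter fun j => d i j < 1).card : ℝ) ≤ ∑ _i : Fin n, (n : ℝ) / 4 :=
      sum_le_sum fun i _ => (hH i).le
    rw [card_filter, Nat.cast_sum, ← univ_product_univ, sum_product]
    simp only [sum_add_distrib, ← mul_sum, hs, sum_const, card_univ, Fintype.card_fin,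
      nsmul_eq_mul, card_filter] at h1 h2
    push_cast at h2 ⊢
    linarith)
  have p1 : 0 < κ * n := by positivity
  have p2 : 0 < √(Real.log n) := by linarith
  have h1 := round hc hd (A := A) (card_pos.1 (by exact_mod_cast p1.trans_le hA))
    (g := fun j => if j ∈ B then κ / √(Real.log n) else 0) fun j a ha => by
      split_ifs with b
      exacts [hAB a ha j b, hk.nonneg a j]
  rw [sum_ite_mem, univ_inter, sum_const, nsmul_eq_mul] at h1
  have h2 := (mul_le_mul_of_nonneg_left (mul_le_mul hA (mul_le_mul_of_nonneg_right hB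
    (by positivity)) (by positivity) (by positivity)) hP).trans h1
  have h3 := mul_le_mul_of_nonneg_left h2 (by positivity : 0 ≤ (κ ^ 3)⁻¹ * √(Real.log n))
  rw [show ∀ x : ℝ, (κ ^ 3)⁻¹ * √(Real.log n) * (x * (κ * n * (κ * n * (κ / √(Real.log n))))) =
    x * n ^ 2 from fun x => by field_simp] at h3
  nlinarith [mul_nonneg p2.le hE]

theorem arv_of_sep (h : SepStmt) : ArvStmt := by
  obtain ⟨C, hC, h⟩ := core h
  refine ⟨4 * C, fun n hn => Real.sSup_le ?_ (by positivity)⟩
  rintro r ⟨c, hc, h0, rfl⟩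
  have n0 : (0 : ℝ) < n := by exact_mod_cast zero_lt_two.trans_le hn
  have key : ∀ e : Fin n → Fin n → ℝ, IsNegType e → pairSum e = 1 →
      Phi c ≤ 4 * C * √(Real.log n) * pairSum fun i j => c i j * e i j := fun e he h1 => by
    have hk := he.negKer
    have h2 := h n c (fun i j => 2 * n ^ 2 * e i j) hn hc ⟨(hk.const_mul (by positivity)).exists_vec,
      fun i j k => (mul_le_mul_of_nonneg_left (he.2 i j k) (by positivity)).trans_eq (mul_add ..)⟩ (by
        rw [pairSum_eq_half hk.symm hk.self] at h1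
        simp only [← mul_sum]
        rw [(div_eq_one_iff_eq two_ne_zero).1 h1]
        ring)
    simp only [mul_left_comm _ (2 * (n : ℝ) ^ 2), ← mul_sum] at h2
    rw [pairSum_eq_half (fun i j => by rw [hc.1 i j, hk.symm i j]) fun i => by simp [hk.self]]
    refine le_of_mul_le_mul_right (h2.trans_eq ?_) (pow_pos n0 2)
    ring
  rcases (mul_nonneg (mul_nonneg zero_le_four hC) (Real.sqrt_nonneg (Real.log n))).eq_or_lt with
    a | a
  all_goals
    have hne : {v | ∃ d : Fin n → Fin n → ℝ, IsNegType d ∧ pairSum d = 1 ∧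
        v = pairSum fun i j => c i j * d i j}.Nonempty := Set.nonempty_iff_ne_empty.2 fun e => by
      rw [glValue, e, Real.sInf_empty] at h0
      exact h0.false
  · obtain ⟨_, e, he, h1, -⟩ := hne
    have := key e he h1
    rw [← a, zero_mul] at this
    exact a ▸ div_nonpos_of_nonpos_of_nonneg this h0.le
  · rw [div_le_iff₀ h0, ← div_le_iff₀' a]
    refine le_csInf hne ?_
    rintro _ ⟨e, he, h1, rfl⟩
    exact (div_le_iff₀' a).2 (key e he h1)

end Vale.Agent.P318.ARV
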