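import Vale.Agent.P318.ARV.Sep
import Vale.Agent.P318.ARV.Round

/-!
The Arora-Rao-Vazirani upper bound for the Goemans-Linial integrality gap.
-/

namespace Vale.Agent.P318

theorem arv : ∃ C : ℝ, ∀ n : ℕ, 2 ≤ n → gap n ≤ C * Real.sqrt (Real.log n) :=
  ARV.arv_of_sep ARV.sep_proof

end Vale.Agent.P318
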