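import Mathlib.Analysis.SpecialFunctions.Log.Basic
import Mathlib.Analysis.SpecialFunctions.Trigonometric.Series
import Mathlib.Algebra.BigOperators.Fin
import Mathlib.Algebra.BigOperators.Field

/-!
Averages over the discrete cube: moments of a signed sum, a variance bound for maxima of signed
sums and the expected maximum.
-/

namespace Vale.Agent.P318.ARV

open Finset

/-- The sign of a bit. -/
def sg (b : Bool) : ℝ := if b then 1 else -1

/-- The signed sum of the coordinates of `w`. -/
def ip {m : ℕ} (e : Fin m → Bool) (w : Fin m → ℝ) : ℝ := ∑ l, sg (e l) * w l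

/-- The opposite vertex of the cube. -/
def op {m : ℕ} (e : Fin m → Bool) : Fin m → Bool := fun l => !e l

/-- The average over the cube. -/
noncomputable def av {m : ℕ} (f : (Fin m → Bool) → ℝ) : ℝ := (∑ e, f e) / 2 ^ m

variable {m : ℕ}

theorem av_succ (f : (Fin (m + 1) → Bool) → ℝ) :
    av f = (av (fun e => f (Fin.cons true e)) + av fun e => f (Fin.cons false e)) / 2 := by
  unfold av
  rw [← (Fin.consEquiv fun _ : Fin (m + 1) => Bool).sum_comp, Fintype.sum_prod_type]
  simp only [Fintype.univ_bool, mem_singleton, Bool.true_eq_false, not_false_eq_true, sum_insert,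
    sum_singleton]
  rw [pow_succ]
  field_simp
  rfl

theorem av_zero (f : (Fin 0 → Bool) → ℝ) : av f = f default := by
  simp only [av, univ_unique, sum_singleton, pow_zero, div_one]
  exact congrArg f (Subsingleton.elim _ _)

theorem av_mono {f g : (Fin m → Bool) → ℝ} (h : ∀ e, f e ≤ g e) : av f ≤ av g :=
  div_le_div_of_nonneg_right (sum_le_sum fun e _ => h e) (by positivity)

theorem av_const (c : ℝ) : av (fun _ : Fin m → Bool => c) = c := by
  simp [av]

theorem av_add (f g : (Fin m → Bool) → ℝ) : av (fun e => f e + g e) = av f + av g := by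
  simp only [av, sum_add_distrib, add_div]

theorem av_sub (f g : (Fin m → Bool) → ℝ) : av (fun e => f e - g e) = av f - av g := by
  simp only [av, sum_sub_distrib, sub_div]

theorem av_mul (c : ℝ) (f : (Fin m → Bool) → ℝ) : av (fun e => c * f e) = c * av f := by
  simp only [av, ← mul_sum, mul_div_assoc]

theorem av_sum {ι : Type*} (s : Finset ι) (f : ι → (Fin m → Bool) → ℝ) :
    av (fun e => ∑ i ∈ s, f i e) = ∑ i ∈ s, av (f i) := by
  simp only [av]
  rw [sum_comm, sum_div]

theorem av_op (f : (Fin m → Bool) → ℝ) : av (fun e => f (op e)) = av f := by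
  unfold av
  congr 1
  have h : Function.Involutive (op (m := m)) := fun e => by
    funext l
    simp [op]
  exact Equiv.sum_comp h.toPerm f

theorem ip_op (e : Fin m → Bool) (w : Fin m → ℝ) : ip (op e) w = -ip e w := by
  unfold ip op
  rw [← sum_neg_distrib]
  refine sum_congr rfl fun l _ => ?_
  cases e l <;> simp [sg]

theorem ip_cons (b : Bool) (e : Fin m → Bool) (w : Fin (m + 1) → ℝ) :
    ip (Fin.cons b e : Fin (m + 1) → Bool) w = sg b * w 0 + ip e fun l => w l.succ := by
  simp [ip, Fin.sum_univ_succ]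

theorem ip_sub (e : Fin m → Bool) (v w : Fin m → ℝ) :
    ip e (fun l => v l - w l) = ip e v - ip e w := by
  simp only [ip, mul_sub, sum_sub_distrib]

theorem ip_mul (e : Fin m → Bool) (c : ℝ) (w : Fin m → ℝ) :
    ip e (fun l => c * w l) = c * ip e w := by
  simp only [ip, mul_sum]
  exact sum_congr rfl fun l _ => by ring

theorem av_var (f : (Fin m → Bool) → ℝ) (c : ℝ) :
    av (fun e => (f e - c) ^ 2) = av (fun e => f e ^ 2) - 2 * c * av f + c ^ 2 := by
  rw [← av_mul, ← av_sub, ← av_const (m := m) (c ^ 2), ← av_add]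
  congr 1
  funext e
  ring

theorem sq_av_le (f : (Fin m → Bool) → ℝ) : av f ^ 2 ≤ av fun e => f e ^ 2 := by
  have h := av_mono (f := fun _ => (0 : ℝ)) (g := fun e => (f e - av f) ^ 2) fun e => sq_nonneg _
  rw [av_const, av_var] at h
  nlinarith

theorem av_sq (w : Fin m → ℝ) : av (fun e => ip e w ^ 2) = ∑ l, w l ^ 2 := by
  induction m with
  | zero => simp [av_zero, ip]
  | succ m ih =>
    rw [av_succ, ← av_add, Fin.sum_univ_succ, ← ih fun l => w l.succ,
      ← av_const (m := m) (w 0 ^ 2), ← av_add, div_eq_inv_mul, ← av_mul]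
    congr 1
    funext e
    simp only [ip_cons, sg, if_true, Bool.false_eq_true, if_false]
    ring

theorem av_four (w : Fin m → ℝ) : av (fun e => ip e w ^ 4) ≤ 3 * (∑ l, w l ^ 2) ^ 2 := by
  induction m with
  | zero => simp [av_zero, ip]
  | succ m ih =>
    have h1 : av (fun e => ip e w ^ 4) = av (fun e => ip e (fun l => w l.succ) ^ 4) +
        (6 * w 0 ^ 2 * av (fun e => ip e (fun l => w l.succ) ^ 2) + w 0 ^ 4) := by
      rw [av_succ, ← av_add, ← av_mul, ← av_const (m := m) (w 0 ^ 4), ← av_add, ← av_add,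
        div_eq_inv_mul, ← av_mul]
      congr 1
      funext e
      simp only [ip_cons, sg, if_true, Bool.false_eq_true, if_false]
      ring
    rw [h1, av_sq, Fin.sum_univ_succ]
    have h2 := ih fun l => w l.succ
    nlinarith [sq_nonneg (w 0 ^ 2)]

theorem av_exp (w : Fin m → ℝ) :
    av (fun e => Real.exp (ip e w)) ≤ Real.exp ((∑ l, w l ^ 2) / 2) := by
  induction m with
  | zero => simp [av_zero, ip]
  | succ m ih =>
    have h1 : av (fun e => Real.exp (ip e w)) =
        Real.cosh (w 0) * av fun e => Real.exp (ip e fun l => w l.succ) := by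
      rw [av_succ, ← av_add, ← av_mul, div_eq_inv_mul, ← av_mul]
      congr 1
      funext e
      simp only [ip_cons, sg, if_true, Bool.false_eq_true, if_false, Real.exp_add, Real.cosh_eq,
        one_mul, neg_mul]
      ring
    rw [h1, Fin.sum_univ_succ, add_div, Real.exp_add]
    refine mul_le_mul (Real.cosh_le_exp_half_sq _) (ih _) ?_ (Real.exp_pos _).le
    rw [← av_const (m := m) 0]
    exact av_mono fun e => (Real.exp_pos _).le

/-- One-sided Efron-Stein inequality for a function with subgradients `u`. -/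
theorem var_le (f : (Fin m → Bool) → ℝ) (u : (Fin m → Bool) → Fin m → ℝ)
    (h : ∀ e e', f e - f e' ≤ ip e (u e) - ip e' (u e)) :
    av (fun e => f e ^ 2) ≤ av f ^ 2 + 2 * av fun e => ∑ l, u e l ^ 2 := by
  induction m with
  | zero => simp [av_zero]
  | succ m ih =>
    have h1 := fun b : Bool => ih (fun e => f (Fin.cons b e))
      (fun e l => u (Fin.cons b e) l.succ) fun e e' => by
        have := h (Fin.cons b e) (Fin.cons b e')
        rw [ip_cons, ip_cons] at this
        linarith
    have h2 := sq_av_le fun e : Fin m → Bool => f (Fin.cons true e) - f (Fin.cons false e)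
    have h3 := av_mono
      (f := fun e : Fin m → Bool => (f (Fin.cons true e) - f (Fin.cons false e)) ^ 2)
      (g := fun e => 4 * (u (Fin.cons true e) 0 ^ 2 + u (Fin.cons false e) 0 ^ 2)) fun e => by
        have a1 := h (Fin.cons true e) (Fin.cons false e)
        have a2 := h (Fin.cons false e) (Fin.cons true e)
        rw [ip_cons, ip_cons] at a1 a2
        simp only [sg, if_true, Bool.false_eq_true, if_false] at a1 a2
        rcases le_total 0 (f (Fin.cons true e) - f (Fin.cons false e)) with a | a
        · nlinarith [sq_nonneg (u (Fin.cons false e) 0)]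
        · nlinarith [sq_nonneg (u (Fin.cons true e) 0)]
    rw [av_mul, av_add] at h3
    rw [av_sub] at h2
    rw [av_succ, av_succ f, av_succ]
    simp only [Fin.sum_univ_succ, av_add]
    have a1 := h1 true
    have a2 := h1 false
    nlinarith

section Max

variable {V : Type*} (w : V → Fin m → ℝ) (T : Finset V) (J : (Fin m → Bool) → V) {r : ℝ}

theorem av_abs_le (hJ : ∀ e, J e ∈ T) (hmax : ∀ e, ∀ j ∈ T, ip e (w j) ≤ ip e (w (J e)))
    (hr : ∀ j ∈ T, ∑ l, w j l ^ 2 ≤ r) {η : ℝ} (hη : 0 < η) (hrη : 8 * r ≤ η ^ 2) :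
    av (fun e => |ip e (w (J e)) - ip (op e) (w (J (op e)))|) ≤ η := by
  set f : (Fin m → Bool) → ℝ := fun e => ip e (w (J e)) with hf
  have h1 := var_le f (fun e => w (J e)) fun e e' => by
    have := hmax e' _ (hJ e)
    simp only [hf]
    linarith
  have h2 : av (fun e => ∑ l, w (J e) l ^ 2) ≤ r := by
    rw [← av_const (m := m) r]
    exact av_mono fun e => hr _ (hJ e)
  have h3 := av_var f (av f)
  have h4 := av_mono (f := fun e => η * |f e - f (op e)|)
    (g := fun e => η ^ 2 / 2 + ((f e - av f) ^ 2 + (f (op e) - av f) ^ 2)) fun e => by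
      have := sq_abs (f e - f (op e))
      nlinarith [sq_nonneg (|f e - f (op e)| - η), sq_nonneg (f e + f (op e) - 2 * av f)]
  rw [av_mul, av_add, av_add, av_const, av_op fun e => (f e - av f) ^ 2] at h4
  refine le_of_mul_le_mul_left ?_ hη
  nlinarith

theorem av_max_le [Fintype V] (hJ : ∀ e, J e ∈ T) (hr : ∀ j ∈ T, ∑ l, w j l ^ 2 ≤ r) (s : ℝ) :
    s * av (fun e => ip e (w (J e))) ≤ Real.log (Fintype.card V) + s ^ 2 * r / 2 := by
  have hN : (0 : ℝ) < Fintype.card V := by
    have : Nonempty V := ⟨J default⟩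
    exact_mod_cast Fintype.card_pos
  set a := Real.log (Fintype.card V) + s ^ 2 * r / 2 with ha
  have h1 := av_mono (f := fun e => s * ip e (w (J e)))
    (g := fun e => a - 1 + Real.exp (-a) * ∑ j ∈ T, Real.exp (ip e fun l => s * w j l))
    fun e => by
      have b1 : Real.exp (ip e fun l => s * w (J e) l) ≤
          ∑ j ∈ T, Real.exp (ip e fun l => s * w j l) :=
        single_le_sum (f := fun j => Real.exp (ip e fun l => s * w j l))
          (fun j _ => (Real.exp_pos _).le) (hJ e)
      have b2 := Real.add_one_le_exp (-a + ip e fun l => s * w (J e) l)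
      have b3 := mul_le_mul_of_nonneg_left b1 (Real.exp_pos (-a)).le
      rw [Real.exp_add] at b2
      rw [← ip_mul]
      linarith
  rw [av_mul, av_add, av_const, av_mul, av_sum] at h1
  have h2 : ∑ j ∈ T, av (fun e => Real.exp (ip e fun l => s * w j l)) ≤ Real.exp a := by
    calc _ ≤ ∑ _j ∈ T, Real.exp (s ^ 2 * r / 2) := by
          refine sum_le_sum fun j hj => (av_exp _).trans (Real.exp_le_exp.mpr ?_)
          simp only [mul_pow, ← mul_sum]
          have := mul_le_mul_of_nonneg_left (hr j hj) (sq_nonneg s)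
          linarith
      _ = T.card * Real.exp (s ^ 2 * r / 2) := by simp
      _ ≤ Fintype.card V * Real.exp (s ^ 2 * r / 2) :=
          mul_le_mul_of_nonneg_right (by exact_mod_cast card_le_univ T) (Real.exp_pos _).le
      _ = Real.exp a := by rw [ha, Real.exp_add, Real.exp_log hN]
  have h3 := mul_le_mul_of_nonneg_left h2 (Real.exp_pos (-a)).le
  rw [← Real.exp_add, neg_add_cancel, Real.exp_zero] at h3
  linarith

end Max

/-- Anti-concentration of a signed sum. -/
theorem av_far (w : Fin m → ℝ) (h1 : 1 ≤ ∑ l, w l ^ 2) (h2 : ∑ l, w l ^ 2 ≤ 16) :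
    1 / 2000 ≤ av fun e => if 1 / 2 ≤ |ip e w| then (1 : ℝ) else 0 := by
  have h := av_mono (f := fun e => ip e w ^ 2)
    (g := fun e => 1 / 4 + (1000 * (if 1 / 2 ≤ |ip e w| then (1 : ℝ) else 0) +
      1 / 4000 * ip e w ^ 4)) fun e => by
      split_ifs with a
      · nlinarith [sq_nonneg (ip e w ^ 2 - 2000)]
      · have := sq_abs (ip e w)
        have b := abs_nonneg (ip e w)
        have : 0 ≤ ip e w ^ 4 := by positivity
        nlinarith [not_le.mp a]
  rw [av_add, av_add, av_const, av_mul, av_mul, av_sq] at h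
  have := av_four w
  nlinarith

end Vale.Agent.P318.ARV
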