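import Vale.Agent.P318.RedFin

/-!
Statements for the Arora-Rao-Vazirani upper bound.
-/

namespace Vale.Agent.P318.ARV

open Finset

/-- The structure theorem: a negative-type semimetric in which half of the ordered pairs are at
distance in `[1, 16]` has two linear-size sets at distance `c / sqrt (log n)`. -/
def SepStmt : Prop :=
  ∃ c : ℝ, 0 < c ∧ ∀ (n : ℕ) (d : Fin n → Fin n → ℝ), 2 ≤ n → IsNegType d →
    (n : ℝ) ^ 2 / 2 ≤
      (((univ : Finset (Fin n × Fin n)).filter fun p => 1 ≤ d p.1 p.2 ∧ d p.1 p.2 ≤ 16).card : ℝ) →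
    ∃ A B : Finset (Fin n), c * n ≤ A.card ∧ c * n ≤ B.card ∧
      ∀ a ∈ A, ∀ b ∈ B, c / Real.sqrt (Real.log n) ≤ d a b

/-- The upper bound for the integrality gap. -/
def ArvStmt : Prop :=
  ∃ C : ℝ, ∀ n : ℕ, 2 ≤ n → gap n ≤ C * Real.sqrt (Real.log n)

end Vale.Agent.P318.ARV
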