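import Vale.Agent.P318.ARV.Cube
import Vale.Agent.P318.ARV.Stmt

/-!
The Arora-Rao-Vazirani structure theorem by chaining.
-/

namespace Vale.Agent.P318.ARV

open Finset

variable {V : Type*} [Fintype V] [DecidableEq V]

/-- Either few pairs are separated by `z`, or a vertex cover of the short separated pairs is
large. -/
theorem cover (d : V → V → ℝ) {Δ t γ : ℝ} (ht : 0 < t) (hγ : 0 ≤ γ)
    (H : ∀ A B : Finset V, t ≤ A.card → t ≤ B.card → ∃ a ∈ A, ∃ b ∈ B, d a b < Δ)
    (z D : V → ℝ) (hD0 : ∀ i, 0 ≤ D i)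
    (hD : ∀ i j, d i j < Δ → z i + γ ≤ z j → 2 * γ ≤ D i + D j) :
    γ * t * (∑ i, ∑ j, if z i + γ ≤ z j then (1 : ℝ) else 0) ≤
      γ * t * (4 * t * Fintype.card V) + (Fintype.card V : ℝ) ^ 2 * ∑ i, D i := by
  set n : ℝ := (Fintype.card V : ℝ) with hn
  have hn0 : 0 ≤ n := Nat.cast_nonneg _
  have hS : 0 ≤ ∑ i, D i := sum_nonneg fun i _ => hD0 i
  have hcnt : ∀ i, (∑ j, if z i + γ ≤ z j then (1 : ℝ) else 0) =
      ((univ.filter fun j => z i + γ ≤ z j).card : ℝ) := fun i => by simp
  have hle : ∀ s : Finset V, (s.card : ℝ) ≤ n := fun s => by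
    rw [hn]
    exact_mod_cast card_le_univ s
  set L := univ.filter fun i => 2 * t ≤ ((univ.filter fun j => z i + γ ≤ z j).card : ℝ) with hL
  by_cases h : 2 * t ≤ (L.card : ℝ)
  · have hne : L.Nonempty := by
      rw [← card_pos]
      have : (0 : ℝ) < L.card := by linarith
      exact_mod_cast this
    obtain ⟨i0, hi0, hmax⟩ := exists_max_image L z hne
    set R := univ.filter fun j => z i0 + γ ≤ z j with hR
    have hR2 : 2 * t ≤ (R.card : ℝ) := (mem_filter.mp hi0).2
    set C := univ.filter fun i => γ ≤ D i with hC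
    have hC1 : t ≤ C.card := by
      by_contra hc
      have hs : ∀ s : Finset V, 2 * t ≤ (s.card : ℝ) → t ≤ ((s \ C).card : ℝ) := fun s hs => by
        have : (s.card : ℝ) ≤ (s \ C).card + C.card := by exact_mod_cast card_le_card_sdiff_add_card
        linarith [not_le.mp hc]
      obtain ⟨a, ha, b, hb, hab⟩ := H _ _ (hs L h) (hs R hR2)
      rw [mem_sdiff] at ha hb
      have a1 := hmax a ha.1
      have a2 := (mem_filter.mp hb.1).2
      have a3 : D a < γ := by simpa [hC] using ha.2
      have a4 : D b < γ := by simpa [hC] using hb.2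
      have := hD a b hab (by linarith)
      linarith
    have h1 : γ * C.card ≤ ∑ i, D i := by
      calc γ * C.card = ∑ _i ∈ C, γ := by simp [mul_comm]
        _ ≤ ∑ i ∈ C, D i := sum_le_sum fun i hi => (mem_filter.mp hi).2
        _ ≤ ∑ i, D i := sum_le_sum_of_subset_of_nonneg (subset_univ _) fun i _ _ => hD0 i
    have h2 : (∑ i, ∑ j, if z i + γ ≤ z j then (1 : ℝ) else 0) ≤ n ^ 2 := by
      calc _ ≤ ∑ _i : V, n := sum_le_sum fun i _ => by rw [hcnt]; exact hle _
        _ = n ^ 2 := by simp [hn, sq]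
    have h3 := mul_le_mul_of_nonneg_left h2 (mul_nonneg hγ ht.le)
    have h4 := mul_le_mul_of_nonneg_left hC1 hγ
    have h5 := mul_le_mul_of_nonneg_left (h4.trans h1) (sq_nonneg n)
    have : 0 ≤ γ * t * (4 * t * n) := by positivity
    linarith
  · have h2 : (∑ i, ∑ j, if z i + γ ≤ z j then (1 : ℝ) else 0) ≤ 4 * t * n := by
      calc _ ≤ ∑ i, ((if i ∈ L then n else 0) + 2 * t) := sum_le_sum fun i _ => by
            rw [hcnt]
            split_ifs with a
            · linarith [hle (univ.filter fun j => z i + γ ≤ z j)]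
            · simp only [hL, mem_filter, mem_univ, true_and, not_le] at a
              linarith
        _ = L.card * n + n * (2 * t) := by simp [sum_add_distrib, hn]
        _ ≤ 4 * t * n := by nlinarith [not_le.mp h]
    have h3 := mul_le_mul_of_nonneg_left h2 (mul_nonneg hγ ht.le)
    have : 0 ≤ n ^ 2 * ∑ i, D i := by positivity
    linarith

omit [DecidableEq V] in
/-- The expected number of separated pairs. -/
theorem av_pairs {m : ℕ} (v : V → Fin m → ℝ) (P : Finset (V × V))
    (hP : ∀ p ∈ P, 1 ≤ ∑ l, (v p.2 l - v p.1 l) ^ 2 ∧ ∑ l, (v p.2 l - v p.1 l) ^ 2 ≤ 16) :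
    (P.card : ℝ) / 4000 ≤
      av fun e => ∑ i, ∑ j, if ip e (v i) + 1 / 2 ≤ ip e (v j) then (1 : ℝ) else 0 := by
  have h1 : (P.card : ℝ) / 2000 ≤
      av fun e => ∑ p ∈ P, if 1 / 2 ≤ |ip e fun l => v p.2 l - v p.1 l| then (1 : ℝ) else 0 := by
    rw [av_sum]
    calc (P.card : ℝ) / 2000 = ∑ _p ∈ P, (1 / 2000 : ℝ) := by simp [div_eq_mul_inv]
      _ ≤ _ := sum_le_sum fun p hp => av_far _ (hP p hp).1 (hP p hp).2
  have h2 := av_mono
    (f := fun e => ∑ p ∈ P, if 1 / 2 ≤ |ip e fun l => v p.2 l - v p.1 l| then (1 : ℝ) else 0)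
    (g := fun e => 2 * ∑ i, ∑ j, if ip e (v i) + 1 / 2 ≤ ip e (v j) then (1 : ℝ) else 0)
    fun e => by
      calc _ ≤ ∑ p : V × V, if 1 / 2 ≤ |ip e fun l => v p.2 l - v p.1 l| then (1 : ℝ) else 0 :=
            sum_le_sum_of_subset_of_nonneg (subset_univ _) fun p _ _ => by positivity
        _ ≤ ∑ p : V × V, ((if ip e (v p.1) + 1 / 2 ≤ ip e (v p.2) then (1 : ℝ) else 0) +
              if ip e (v p.2) + 1 / 2 ≤ ip e (v p.1) then (1 : ℝ) else 0) := by
            refine sum_le_sum fun p _ => ?_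
            rw [ip_sub]
            by_cases a : 1 / 2 ≤ |ip e (v p.2) - ip e (v p.1)|
            · rw [if_pos a]
              rcases le_abs'.mp a with b | b
              · rw [if_pos (show ip e (v p.2) + 1 / 2 ≤ ip e (v p.1) by linarith)]
                split_ifs <;> norm_num
              · rw [if_pos (show ip e (v p.1) + 1 / 2 ≤ ip e (v p.2) by linarith)]
                split_ifs <;> norm_num
            · rw [if_neg a]
              positivity
        _ = _ := by
            rw [sum_add_distrib, Fintype.sum_prod_type, Fintype.sum_prod_type_right, two_mul]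
  rw [av_mul] at h2
  linarith

/-- The chaining argument. -/
theorem chain {m : ℕ} (v : V → Fin m → ℝ) (d : V → V → ℝ)
    (hd : ∀ i j, d i j = ∑ l, (v j l - v i l) ^ 2) (htri : ∀ i j k, d i k ≤ d i j + d j k)
    (P : Finset (V × V)) (hP : ∀ p ∈ P, 1 ≤ d p.1 p.2 ∧ d p.1 p.2 ≤ 16)
    (hPc : (Fintype.card V : ℝ) ^ 2 / 2 ≤ P.card) (hn : 0 < Fintype.card V) {Δ : ℝ} (hΔ : 0 ≤ Δ)
    (H : ∀ A B : Finset V, (Fintype.card V : ℝ) / 64000 ≤ A.card →
      (Fintype.card V : ℝ) / 64000 ≤ B.card → ∃ a ∈ A, ∃ b ∈ B, d a b < Δ)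
    (K : ℕ) (hK : 8 * (K * Δ) ≤ (1 / 4096000000) ^ 2) (s : ℝ) (hs : 0 ≤ s) :
    s * (K * (1 / 4096000000)) ≤ 2 * Real.log (Fintype.card V) + s ^ 2 := by
  set n : ℝ := (Fintype.card V : ℝ) with hnn
  have hn0 : 0 < n := by rw [hnn]; exact_mod_cast hn
  have hsymm : ∀ i j, d i j = d j i := fun i j => by
    rw [hd, hd]
    exact sum_congr rfl fun l _ => by ring
  have hself : ∀ i, d i i = 0 := fun i => by simp [hd]
  have hex : ∀ (k : ℕ) (i : V) (e : Fin m → Bool), ∃ j ∈ univ.filter fun j => d i j ≤ k * Δ,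
      ∀ j' ∈ univ.filter fun j => d i j ≤ k * Δ,
        ip e (fun l => v j' l - v i l) ≤ ip e fun l => v j l - v i l := fun k i e =>
    exists_max_image _ (fun j => ip e fun l => v j l - v i l)
      ⟨i, by simp only [mem_filter, mem_univ, true_and, hself]; positivity⟩
  choose J hJ hmax using hex
  set Y : ℕ → V → (Fin m → Bool) → ℝ := fun k i e => ip e fun l => v (J k i e) l - v i l with hY
  have hstep : ∀ k i j e, d i j ≤ Δ → Y k j e + (ip e (v j) - ip e (v i)) ≤ Y (k + 1) i e := by
    intro k i j e hij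
    have a1 := (mem_filter.mp (hJ k j e)).2
    have a2 := hmax (k + 1) i e (J k j e) (by
      simp only [mem_filter, mem_univ, true_and]
      push_cast
      linarith [htri i j (J k j e)])
    simp only [hY, ip_sub] at a2 ⊢
    linarith
  have hmono : ∀ k i e, Y k i e ≤ Y (k + 1) i e := fun k i e => by
    simpa using hstep k i i e (by rw [hself]; exact hΔ)
  have hr : ∀ (k : ℕ) (i : V), ∀ j ∈ univ.filter fun j => d i j ≤ k * Δ,
      ∑ l, (v j l - v i l) ^ 2 ≤ k * Δ := fun k i j hj => by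
    rw [← hd]
    exact (mem_filter.mp hj).2
  have hinc : ∀ k : ℕ, k ≤ K →
      2 * ∑ i, av (Y k i) + n * (1 / 4096000000) ≤ 2 * ∑ i, av (Y (k + 1) i) := by
    intro k hk
    have hk2 : 8 * ((k : ℝ) * Δ) ≤ (1 / 4096000000) ^ 2 := by
      have : (k : ℝ) ≤ K := by exact_mod_cast hk
      nlinarith
    have h1 := av_mono fun e => cover d (t := n / 64000) (γ := 1 / 2) (by positivity)
      (by norm_num) H (fun i => ip e (v i))
      (fun i => Y (k + 1) i e + Y (k + 1) i (op e) - (Y k i e + Y k i (op e)) +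
        |Y k i e - Y k i (op e)|)
      (fun i => by linarith [hmono k i e, hmono k i (op e), abs_nonneg (Y k i e - Y k i (op e))])
      (fun i j hij hz => by
        have a1 := hstep k i j e hij.le
        have a2 := hstep k j i (op e) (by rw [hsymm]; exact hij.le)
        rw [ip_op, ip_op] at a2
        linarith [hmono k i (op e), hmono k j e, le_abs_self (Y k i e - Y k i (op e)),
          neg_abs_le (Y k j e - Y k j (op e))])
    have h2 := av_pairs v P fun p hp => by rw [← hd]; exact hP p hp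
    rw [av_mul, av_add, av_const, av_mul, ← hnn] at h1
    have h3 : av (fun e => ∑ i, (Y (k + 1) i e + Y (k + 1) i (op e) - (Y k i e + Y k i (op e)) +
        |Y k i e - Y k i (op e)|)) ≤
        ∑ i, (2 * av (Y (k + 1) i) - 2 * av (Y k i) + 1 / 4096000000) := by
      rw [av_sum]
      refine sum_le_sum fun i _ => ?_
      rw [av_add, av_sub, av_add, av_add, av_op, av_op]
      have := av_abs_le (fun j l => v j l - v i l) _ (J k i) (hJ k i) (hmax k i) (hr k i)
        (by norm_num) hk2
      simp only [hY]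
      linarith
    rw [sum_add_distrib, sum_sub_distrib, ← mul_sum, ← mul_sum, sum_const, card_univ,
      nsmul_eq_mul, ← hnn] at h3
    have h4 := mul_le_mul_of_nonneg_left h3 (sq_nonneg n)
    have h5 := mul_le_mul_of_nonneg_left (show n ^ 2 / 8000 ≤ _ by linarith [h2, hPc] :
      n ^ 2 / 8000 ≤ av fun e => ∑ i, ∑ j, if ip e (v i) + 1 / 2 ≤ ip e (v j) then (1 : ℝ) else 0)
      (show 0 ≤ 1 / 2 * (n / 64000) by positivity)
    refine le_of_mul_le_mul_left ?_ (pow_pos hn0 2)
    linarith
  have hlow : ∀ k : ℕ, k ≤ K → k * (n * (1 / 4096000000)) ≤ 2 * ∑ i, av (Y k i) := by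
    intro k
    induction k with
    | zero =>
      intro _
      have : 0 ≤ ∑ i, av (Y 0 i) := sum_nonneg fun i _ => by
        rw [← av_const (m := m) 0]
        refine av_mono fun e => ?_
        have := hmax 0 i e i (by simp [hself])
        simpa [ip, hY] using this
      simpa using this
    | succ k ih =>
      intro hk
      have := hinc k (by omega)
      have := ih (by omega)
      push_cast
      linarith
  have hup : s * ∑ i, av (Y K i) ≤ n * (Real.log n + s ^ 2 / 2) := by
    rw [mul_sum]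
    calc _ ≤ ∑ _i : V, (Real.log n + s ^ 2 / 2) := sum_le_sum fun i _ => by
          have := av_max_le (fun j l => v j l - v i l) _ (J K i) (hJ K i) (hr K i) s
          have a : s ^ 2 * (K * Δ) ≤ s ^ 2 * 1 :=
            mul_le_mul_of_nonneg_left (by norm_num at hK; linarith) (sq_nonneg s)
          simp only [hY]
          linarith
      _ = _ := by rw [sum_const, card_univ, nsmul_eq_mul]
  have := mul_le_mul_of_nonneg_left (hlow K le_rfl) hs
  refine le_of_mul_le_mul_left ?_ hn0
  nlinarith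

theorem sep_proof : SepStmt := by
  obtain ⟨η, hη⟩ : ∃ η : ℝ, η = 1 / 4096000000 := ⟨_, rfl⟩
  have hη0 : 0 < η := by norm_num [hη]
  have hη1 : η ≤ 1 / 64000 := by norm_num [hη]
  refine ⟨η ^ 3 / 40, by positivity, fun n d hn hd hP => ?_⟩
  obtain ⟨⟨x, hx⟩, htri⟩ := hd
  have hn2 : (2 : ℝ) ≤ n := by exact_mod_cast hn
  have hlog : 1 / 4 < Real.log n :=
    lt_of_lt_of_le (by linarith [Real.one_sub_inv_le_log_of_pos two_pos]) (Real.log_le_log two_pos hn2)
  set s := Real.sqrt (Real.log n) with hs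
  have hs2 : s ^ 2 = Real.log n := Real.sq_sqrt (by linarith)
  have hs1 : 1 / 2 < s := by
    rw [hs]
    exact Real.lt_sqrt_of_sq_lt (by linarith)
  by_contra hcon
  push Not at hcon
  have hc : η ^ 3 / 40 * n ≤ n / 64000 := by
    have : η ^ 3 ≤ η := pow_le_of_le_one hη0.le (by linarith) (by norm_num)
    nlinarith
  set K := ⌊3 * s / η⌋₊ + 1 with hK
  have hK1 : 3 * s / η < K := by
    rw [hK]
    push_cast
    exact Nat.lt_floor_add_one _
  have hK2 : (K : ℝ) * η ≤ 5 * s := by
    have : (⌊3 * s / η⌋₊ : ℝ) ≤ 3 * s / η := Nat.floor_le (by positivity)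
    rw [le_div_iff₀ hη0] at this
    rw [hK]
    push_cast
    linarith
  have key := chain (V := Fin n) (fun i l => x i l) d
    (fun i j => by
      rw [hx, norm_sub_rev, EuclideanSpace.real_norm_sq_eq]
      rfl) htri _ (fun p hp => (mem_filter.mp hp).2) (by simpa using hP) (by simp; omega)
    (Δ := η ^ 3 / 40 / s) (by positivity)
    (fun A B hA hB => hcon A B (by simp at hA; linarith) (by simp at hB; linarith)) K
    (by
      rw [← hη, ← mul_div_assoc, ← mul_div_assoc, div_le_iff₀ (by linarith)]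
      linarith [mul_le_mul_of_nonneg_left hK2 (sq_nonneg η)]) s (by linarith)
  rw [← hη, Fintype.card_fin, ← hs2] at key
  rw [div_lt_iff₀ hη0] at hK1
  nlinarith

end Vale.Agent.P318.ARV
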